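import Crest.Agent.N233.Lp.Defs
import Crest.Agent.N233.Rg.Psm
import Crest.Agent.N233.Ou.R2b
import Crest.Agent.N233.Rr.Hy

/-!
# Row 233 (helper27): pseudomanifold links give `Rg.Loc`, `Ou.Lk1` and `Rr.Hy`
-/

set_option autoImplicit false

namespace Crest.Agent.N233.Lp

open N233.Hyp Relation

variable {A : Type} [DecidableEq A] {Γ : SimpleGraph A} {L : Set A}

theorem clq2 {a b : A} (h : Γ.Adj a b) : Γ.IsClique (({a, b} : Finset A) : Set A) := by
  simp [h]

theorem ncl3 {a b c : A} (ab : Γ.Adj a b) (ac : Γ.Adj a c) (bc : Γ.Adj b c) :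
    Γ.IsNClique 3 {a, b, c} := SimpleGraph.is3Clique_triple_iff.2 ⟨ab, ac, bc⟩

omit [DecidableEq A] in
/-- a clique with at most three vertices has a common neighbour -/
theorem Psm.exists_lk (M : Psm Γ L) {τ : Finset A} (h : Γ.IsClique (τ : Set A)) (s : ↑τ ⊆ L)
    (c : τ.card ≤ 3) : ∃ d, Lk Γ L τ d := by
  obtain ⟨σ, h1, h2, h3⟩ := M.ext τ h s
  obtain ⟨d, d1, d2⟩ := Finset.exists_mem_notMem_of_card_lt_card (s := τ) (t := σ)
    (by rw [h1.card_eq]; omega)
  exact ⟨d, h3 d1, fun a ha => h1.isClique (h2 ha) d1 fun e => d2 (e ▸ ha)⟩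

theorem Psm.rg (M : Psm Γ L) : Rg.Psm Γ L where
  no5 a ha b hb c hc d hd e he ab ac ad ae bc bd be cd ce de := by
    have h : Γ.IsNClique 5 {a, b, c, d, e} :=
      ((ncl3 cd ce de).insert (by simp [bc, bd, be])).insert (by simp [ab, ac, ad, ae])
    have := M.le4 _ h.isClique (by simp [Set.insert_subset_iff, *])
    rw [h.card_eq] at this
    omega
  e1 a ha := by
    obtain ⟨d, h1, h2⟩ := M.exists_lk (τ := {a}) (by simp) (by simpa) (by simp)
    exact ⟨d, h1, h2 a (by simp)⟩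
  e2 a ha b hb ab := by
    obtain ⟨d, h1, h2⟩ := M.exists_lk (clq2 ab) (by simp [Set.insert_subset_iff, *])
      (Finset.card_le_two.trans (by omega))
    exact ⟨d, h1, h2 a (by simp), h2 b (by simp)⟩
  e3 a ha b hb c hc ab ac bc := by
    obtain ⟨d, h1, h2⟩ := M.exists_lk (ncl3 ab ac bc).isClique (by simp [Set.insert_subset_iff, *])
      Finset.card_le_three
    exact ⟨d, h1, h2 a (by simp), h2 b (by simp), h2 c (by simp)⟩
  oth a ha b hb c hc d _ ab ac bc _ _ _ := by
    obtain ⟨u, u', ne, h⟩ := M.two _ (ncl3 ab ac bc) (by simp [Set.insert_subset_iff, *])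
    have k : ∀ u, Lk Γ L {a, b, c} u → u ≠ d →
        ∃ d' ∈ L, d' ≠ d ∧ Γ.Adj a d' ∧ Γ.Adj b d' ∧ Γ.Adj c d' := fun u h n =>
      ⟨u, h.1, n, h.2 a (by simp), h.2 b (by simp), h.2 c (by simp)⟩
    by_cases e : u = d
    · exact k u' ((h _).2 (Or.inr rfl)) (e ▸ ne.symm)
    · exact k u ((h _).2 (Or.inl rfl)) e
  two a ha b hb c hc ab ac bc := by
    obtain ⟨u, u', -, h⟩ := M.two _ (ncl3 ab ac bc) (by simp [Set.insert_subset_iff, *])
    exact ⟨u, u', fun e he h1 h2 h3 => (h e).1 ⟨he, by simp [*]⟩⟩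
  c0 x hx y hy := by
    simpa [Lk] using M.lk ∅ (by simp) (by simp) (by simp) x y ⟨hx, by simp⟩ ⟨hy, by simp⟩
  c1 a ha x hx y hy := by
    simpa [Lk] using M.lk {a} (by simp) (by simpa) (by simp) x y (by simpa [Lk] using hx)
      (by simpa [Lk] using hy)
  c2 a ha b hb ab x hx y hy := by
    simp only [Set.mem_ofPred_eq]
    simpa [Lk] using M.lk {a, b} (clq2 ab) (by simp [Set.insert_subset_iff, *]) Finset.card_le_two x y
      ⟨hx.1, by simp [hx.2.1, hx.2.2]⟩ ⟨hy.1, by simp [hy.2.1, hy.2.2]⟩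
  fin a ha := by simpa [Lk] using M.fin a ha

section st
variable {P : Type} {st : P → A → P → Prop}

/-- **`Rg.Loc`** -/
theorem loc_of (hq : NoSq Γ) (M : ∀ x, Psm Γ {a | ∃ y, st x a y}) : Rg.Loc Γ st :=
  Rg.loc_of_psm hq fun x => (M x).rg

/-- **`Ou.Lk1`** -/
theorem lk1_of (M : ∀ x, Psm Γ {a | ∃ y, st x a y}) : Ou.Lk1 Γ st where
  ne x _ y e _ hσ := ((M x).rg.lk_ne ⟨y, e⟩ hσ).imp fun _ h => ⟨h.1, h.2⟩
  conn x a y e σ hσ c c' h h' := by
    have := (M x).rg.lk_con ⟨y, e⟩ hσ c ⟨⟨h.1, h.2.1⟩, h.2.2⟩ c' ⟨⟨h'.1, h'.2.1⟩, h'.2.2⟩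
    clear h'
    induction this with
    | refl => exact .refl
    | tail _ j ih => exact ih.tail ⟨j.1, j.2.1.1, j.2.1.2, j.2.2⟩

end st

/-- tetrahedra with a common face of codimension `k` are joined in the dual graph -/
theorem Psm.dual_aux (M : Psm Γ L) (k : ℕ) : ∀ τ : Finset A, τ.card + k = 4 → ∀ σ σ', Γ.IsNClique 4 σ →
    Γ.IsNClique 4 σ' → ↑σ ⊆ L → ↑σ' ⊆ L → τ ⊆ σ → τ ⊆ σ' → ReflTransGen
      (fun x y => (Γ.IsNClique 4 x ∧ ↑x ⊆ L) ∧ (Γ.IsNClique 4 y ∧ ↑y ⊆ L) ∧ (x ∩ y).card = 3) σ σ' := by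
  induction k with
  | zero =>
    intro τ c σ σ' h h' _ _ s s'
    rw [← Finset.eq_of_subset_of_card_le s (by rw [h.card_eq]; omega),
      ← Finset.eq_of_subset_of_card_le s' (by rw [h'.card_eq]; omega)]
  | succ k ih =>
    intro τ c σ σ' h h' l l' s s'
    rcases Nat.eq_zero_or_pos k with rfl | k0
    · by_cases e : σ = σ'
      · rw [e]
      refine .single ⟨⟨h, l⟩, ⟨h', l'⟩, le_antisymm (Nat.le_of_lt_succ ?_) ?_⟩
      · rw [Nat.succ_eq_add_one, show 3 + 1 = 4 from rfl, ← h.card_eq]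
        refine Finset.card_lt_card ⟨Finset.inter_subset_left, fun n => e ?_⟩
        exact Finset.eq_of_subset_of_card_le (n.trans Finset.inter_subset_right)
          (by rw [h.card_eq, h'.card_eq])
      · have := Finset.card_le_card (Finset.subset_inter s s')
        omega
    have ex : ∀ σ, Γ.IsNClique 4 σ → ↑σ ⊆ L → τ ⊆ σ → ∃ v ∈ σ, Lk Γ L τ v := fun σ h l s => by
      obtain ⟨d, d1, d2⟩ := Finset.exists_mem_notMem_of_card_lt_card (s := τ) (t := σ)
        (by rw [h.card_eq]; omega)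
      exact ⟨d, d1, l d1, fun a ha => h.isClique (s ha) d1 fun e => d2 (e ▸ ha)⟩
    have cd : ∀ v, Lk Γ L τ v → (insert v τ).card + k = 4 := fun v hv => by
      rw [Finset.card_insert_of_notMem fun m => (hv.2 v m).ne rfl]; omega
    have ct : Γ.IsClique (τ : Set A) := h.isClique.subset s
    obtain ⟨v, v1, v2⟩ := ex σ h l s
    obtain ⟨v', w1, w2⟩ := ex σ' h' l' s'
    have p := M.lk τ ct (Set.Subset.trans s l) (by omega) v v' v2 w2
    induction p generalizing σ' with
    | refl => exact ih _ (cd v v2) σ σ' h h' l l' (Finset.insert_subset v1 s) (Finset.insert_subset w1 s')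
    | @tail u w q j ih' =>
      have hu : Lk Γ L τ u := by
        cases q with
        | refl => exact v2
        | tail _ j => exact j.2
      obtain ⟨ρ, r1, r2, r3⟩ := M.ext (insert u (insert w τ)) (by
        rw [Finset.coe_insert, Finset.coe_insert]
        refine (ct.insert fun b hb _ => (w2.2 b hb).symm).insert ?_
        rintro b (rfl | hb) _
        exacts [j.1, (hu.2 b hb).symm]) (by
        rw [Finset.coe_insert, Finset.coe_insert]
        exact Set.insert_subset hu.1 (Set.insert_subset w2.1 (Set.Subset.trans s l)))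
      have t : insert w τ ⊆ ρ := (Finset.subset_insert _ _).trans r2
      exact (ih' ρ r1 r3 ((Finset.subset_insert _ _).trans t) (r2 (Finset.mem_insert_self _ _)) hu).trans
        (ih _ (cd w w2) ρ σ' r1 h' r3 l' t (Finset.insert_subset w1 s'))

/-- **`Rr.Hy`** -/
theorem Psm.hy (M : Psm Γ Set.univ) : Rr.Hy Γ where
  le4 τ h := M.le4 τ h (Set.subset_univ _)
  ext τ h := (M.ext τ h (Set.subset_univ _)).imp fun _ h => ⟨h.1, h.2.1⟩
  two ρ h := by
    obtain ⟨a, a', ne, k⟩ := M.two ρ h (Set.subset_univ _)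
    refine ⟨a, a', ne, fun s => Iff.trans ⟨fun e => ⟨trivial, fun b hb => ?_⟩,
      fun e => h.insert fun b hb => (e.2 b hb).symm⟩ (k s)⟩
    refine e.isClique (Finset.mem_insert_of_mem hb) (Finset.mem_insert_self _ _) fun r => ?_
    have := e.card_eq
    rw [Finset.insert_eq_of_mem (r ▸ hb), h.card_eq] at this
    omega
  dual σ σ' h h' := by
    have := M.dual_aux 4 ∅ rfl σ σ' h h' (Set.subset_univ _) (Set.subset_univ _)
      (Finset.empty_subset _) (Finset.empty_subset _)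
    clear h'
    induction this with
    | refl => exact .refl
    | tail _ j ih => exact ih.tail ⟨j.1.1, j.2.1.1, j.2.2⟩
  conn a c c' h h' := by
    have := M.rg.out_con (Set.mem_univ a) c ⟨trivial, h⟩ c' ⟨trivial, h'⟩
    clear h'
    induction this with
    | refl => exact .refl
    | tail q j ih =>
      refine ih.tail ⟨j.1, ?_, j.2.2⟩
      cases q with
      | refl => exact h
      | tail _ j => exact j.2.2

end Crest.Agent.N233.Lp
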