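import Crest.Agent.N233.Lp.Q
import Crest.Agent.N233.Hyp.Mir

/-!
# Row 233 (helper95): a chamber with cones on its walls is a closed pseudomanifold
-/

set_option autoImplicit false
open Relation

noncomputable section

namespace Crest.Agent.N233.Lp

open N255.Ch N233.Hyp N255.Ra

variable {S N Ed : Type} [DecidableEq S] [DecidableEq Ed] {Γ : SimpleGraph S} {src tgt : Ed → N}
  {T : S → Set N}

/-- a chamber with walls `J`, coned off -/
theorem psm_cone {J : Set Ed} {C : Finset S} {Tw : Ed → Finset S} (h : Chm Γ J C Tw)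
    (hT : ∀ e ∈ J, ∀ s, Wl src tgt T e s ↔ s ∈ Tw e) {L : Set (S ⊕ Ed)}
    (hl : ∀ s, .inl s ∈ L ↔ s ∈ C) (hr : ∀ e, .inr e ∈ L ↔ e ∈ J) : Psm (cone Γ src tgt T) L := by
  let ι : S ↪ S ⊕ Ed := Function.Embedding.inl
  have nm : ∀ (e : Ed) (τ : Finset S), Sum.inr e ∉ τ.map ι := fun e τ => by simp [ι]
  have cd : ∀ (e : Ed) (τ : Finset S), (insert (.inr e) (τ.map ι)).card = τ.card + 1 := fun e τ => by
    rw [Finset.card_insert_of_notMem (nm e τ), Finset.card_map]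
  have cs : ∀ τ : Finset (S ⊕ Ed), (cone Γ src tgt T).IsClique (τ : Set (S ⊕ Ed)) → ↑τ ⊆ L →
      (∃ σ ∈ Q Γ C ∅, τ = σ.map ι) ∨
        ∃ e ∈ J, ∃ σ ∈ Q Γ (Tw e) ∅, τ = insert (.inr e) (σ.map ι) := by
    intro τ hτ hL
    have c1 : Γ.IsClique (τ.toLeft : Set S) := fun s hs t ht n =>
      hτ (Finset.mem_toLeft.1 hs) (Finset.mem_toLeft.1 ht) fun e => n (Sum.inl_injective e)
    by_cases k : ∃ e, Sum.inr e ∈ τ
    · obtain ⟨e, he⟩ := k
      have hJ := (hr e).1 (hL he)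
      refine .inr ⟨e, hJ, τ.toLeft, ⟨c1, Finset.empty_subset _, fun s hs => (hT e hJ s).1
        (hτ (Finset.mem_toLeft.1 hs) he (by simp))⟩, Finset.ext ?_⟩
      rintro (s | e')
      · simp [ι]
      · simp only [Finset.mem_insert, nm, or_false]
        exact ⟨fun k => by_contra fun n => hτ k he n, fun k => k ▸ he⟩
    · refine .inl ⟨τ.toLeft, ⟨c1, Finset.empty_subset _, fun s hs =>
        (hl s).1 (hL (Finset.mem_toLeft.1 hs))⟩, Finset.ext ?_⟩
      rintro (s | e')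
      · simp [ι]
      · simp only [nm, iff_false]
        exact fun m => k ⟨_, m⟩
  have k1 : ∀ (σ : Finset S) s, Lk (cone Γ src tgt T) L (σ.map ι) (.inl s) ↔ Lk Γ C σ s := fun σ s =>
    and_congr (hl s) (by simp only [Finset.forall_mem_map]; rfl)
  have k2 : ∀ (σ : Finset S) e, Lk (cone Γ src tgt T) L (σ.map ι) (.inr e) ↔ e ∈ J ∧ σ ⊆ Tw e :=
    fun σ e => by
      refine (and_congr_left' (hr e)).trans (and_congr_right fun he => ?_)
      simp only [Finset.forall_mem_map]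
      exact forall₂_congr fun s _ => hT e he s
  have k3 : ∀ e ∈ J, ∀ (σ : Finset S) s,
      Lk (cone Γ src tgt T) L (insert (.inr e) (σ.map ι)) (.inl s) ↔ Lk Γ (Tw e) σ s := by
    intro e he σ s
    simp only [Lk, Finset.forall_mem_insert, Finset.forall_mem_map, hl]
    exact ⟨fun k => ⟨(hT e he s).1 k.2.1, k.2.2⟩,
      fun k => ⟨h.sub e he k.1, (hT e he s).2 k.1, k.2⟩⟩
  have k4 : ∀ e e' (σ : Finset S),
      ¬Lk (cone Γ src tgt T) L (insert (.inr e) (σ.map ι)) (.inr e') := fun e e' σ k =>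
    k.2 _ (Finset.mem_insert_self _ _)
  have c1 : ∀ σ : Finset S, Γ.IsClique (σ : Set S) →
      (cone Γ src tgt T).IsClique ((σ.map ι : Finset _) : Set (S ⊕ Ed)) := by
    intro σ hσ a ha b hb n
    obtain ⟨s, hs, rfl⟩ := Finset.mem_map.1 ha
    obtain ⟨t, ht, rfl⟩ := Finset.mem_map.1 hb
    exact hσ hs ht fun e => n (congrArg _ e)
  have s1 : ∀ σ : Finset S, σ ⊆ C → ((σ.map ι : Finset _) : Set (S ⊕ Ed)) ⊆ L := by
    intro σ hσ a ha
    obtain ⟨s, hs, rfl⟩ := Finset.mem_map.1 ha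
    exact (hl s).2 (hσ hs)
  refine ⟨fun τ hτ hL => ?_, fun τ hτ hL => ?_, fun ρ hρ hL => ?_, fun τ hτ hL hc => ?_,
    fun a ha => ?_⟩
  · rcases cs τ hτ hL with ⟨σ, hσ, rfl⟩ | ⟨e, he, σ, hσ, rfl⟩
    · rw [Finset.card_map]; exact h.le4 σ hσ
    · rw [cd]; exact Nat.succ_le_succ (h.le3 e he σ hσ)
  · rcases cs τ hτ hL with ⟨σ, hσ, rfl⟩ | ⟨e, he, σ, hσ, rfl⟩
    · obtain ⟨σ', h1, h2⟩ := h.ext4 σ hσ
      exact ⟨σ'.map ι, ⟨c1 _ h1.1, by rw [Finset.card_map, h2]⟩, Finset.map_subset_map.2 h1.2.1,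
        s1 _ h1.2.2⟩
    · obtain ⟨σ', h1, h2⟩ := h.ext3 e he σ hσ
      have := (k2 σ' e).2 ⟨he, h1.2.2⟩
      refine ⟨insert (.inr e) (σ'.map ι), ⟨this.clique (c1 _ h1.1), by rw [cd, h2]⟩,
        Finset.insert_subset_insert _ (Finset.map_subset_map.2 h1.2.1), ?_⟩
      rw [Finset.coe_insert]
      exact Set.insert_subset this.1 (s1 _ (h1.2.2.trans (h.sub e he)))
  · rcases cs ρ hρ.1 hL with ⟨σ, hσ, rfl⟩ | ⟨e, he, σ, hσ, rfl⟩
    · have hc : σ.card = 3 := by rw [← hρ.2, Finset.card_map]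
      by_cases hw : ∃ j ∈ J, σ ⊆ Tw j
      · obtain ⟨j, hj, hw⟩ := hw
        obtain ⟨a, ha⟩ := h.one4 j hj σ ⟨hσ.1, hσ.2.1, hw⟩ hc
        obtain ⟨v, hv⟩ : σ.Nonempty := Finset.card_pos.1 (by omega)
        refine ⟨.inl a, .inr j, by simp, ?_⟩
        rintro (s | e)
        · simp [k1, ha]
        · simp only [k2, reduceCtorEq, Sum.inr.injEq, false_or]
          exact ⟨fun k => h.dis e k.1 j hj v (k.2 hv) (hw hv), fun k => k ▸ ⟨hj, hw⟩⟩
      · push Not at hw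
        obtain ⟨a, a', n, ha⟩ := h.two4 σ hσ hc hw
        refine ⟨.inl a, .inl a', by simpa using n, ?_⟩
        rintro (s | e)
        · simp [k1, ha]
        · simp only [k2, reduceCtorEq, or_self, iff_false]
          exact fun k => hw e k.1 k.2
    · obtain ⟨a, a', n, ha⟩ := h.two3 e he σ hσ (by have := hρ.2; rw [cd] at this; omega)
      refine ⟨.inl a, .inl a', by simpa using n, ?_⟩
      rintro (s | e')
      · simp [k3 e he, ha]
      · simp [k4]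
  · rcases cs τ hτ hL with ⟨σ, hσ, rfl⟩ | ⟨e, he, σ, hσ, rfl⟩
    · rw [Finset.card_map] at hc
      have p : ∀ s s', Lk Γ C σ s → Lk Γ C σ s' → ReflTransGen (fun u v =>
          (cone Γ src tgt T).Adj u v ∧ Lk (cone Γ src tgt T) L (σ.map ι) v) (.inl s) (.inl s') :=
        fun s s' hs hs' => (h.lk4 σ hσ hc s s' hs hs').lift Sum.inl fun u v k => ⟨k.1, (k1 _ _).2 k.2⟩
      have q : ∀ e, Lk (cone Γ src tgt T) L (σ.map ι) (.inr e) →
          ∃ s, Lk Γ C σ s ∧ Wl src tgt T e s := fun e k => by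
        obtain ⟨he, k⟩ := (k2 _ _).1 k
        obtain ⟨σ', h1, h2⟩ := h.ext3 e he σ ⟨hσ.1, hσ.2.1, k⟩
        obtain ⟨s, h3, h4⟩ := exists_lk (L := C) h1.1 h1.2.1 (by omega)
          (Finset.coe_subset.2 (h1.2.2.trans (h.sub e he)))
        exact ⟨s, h4, (hT e he s).2 (h1.2.2 h3)⟩
      have r : ∀ s c', Lk Γ C σ s → Lk (cone Γ src tgt T) L (σ.map ι) c' → ReflTransGen (fun u v =>
          (cone Γ src tgt T).Adj u v ∧ Lk (cone Γ src tgt T) L (σ.map ι) v) (.inl s) c' := by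
        rintro s (s' | e) hs hc'
        · exact p s s' hs ((k1 _ _).1 hc')
        · obtain ⟨s', h1, h2⟩ := q e hc'
          exact (p s s' hs h1).tail ⟨h2, hc'⟩
      rintro (s | e) c' hc hc'
      · exact r s c' ((k1 _ _).1 hc) hc'
      · obtain ⟨s, h1, h2⟩ := q e hc
        have j : (cone Γ src tgt T).Adj (.inr e) (.inl s) := h2
        exact (r s c' h1 hc').head ⟨j, (k1 _ _).2 h1⟩
    · rw [cd] at hc
      rintro (s | e1) (s' | e2) hc hc'
      · exact (h.lk3 e he σ hσ (by omega) s s' ((k3 e he _ _).1 hc) ((k3 e he _ _).1 hc')).lift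
          Sum.inl fun u v k => ⟨k.1, (k3 e he _ _).2 k.2⟩
      · exact (k4 _ _ _ hc').elim
      · exact (k4 _ _ _ hc).elim
      · exact (k4 _ _ _ hc).elim
  · have f : {c : S ⊕ Ed | ∃ e, c = .inr e ∧ Lk (cone Γ src tgt T) L {a} c}.Subsingleton := by
      rintro _ ⟨e, rfl, k⟩ _ ⟨e', rfl, k'⟩
      rcases a with s | e0
      · have he := (hr e).1 k.1
        have he' := (hr e').1 k'.1
        rw [h.dis e he e' he' s ((hT e he s).1 (k.2 _ (Finset.mem_singleton_self _)))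
          ((hT e' he' s).1 (k'.2 _ (Finset.mem_singleton_self _)))]
      · exact (k.2 _ (Finset.mem_singleton_self _)).elim
    refine ((C.finite_toSet.image Sum.inl).union f.finite).subset ?_
    rintro (s | e) k
    · exact .inl ⟨s, (hl s).1 k.1, rfl⟩
    · exact .inr ⟨e, rfl, k⟩

omit [DecidableEq S] [DecidableEq Ed] in
theorem mst_inl (x : W Γ × N) (s : S) : (∃ z, mst Γ src tgt T x (.inl s) z) ↔ x.2 ∈ T s :=
  ⟨fun ⟨_, h⟩ => h.1, fun h => ⟨_, h, rfl⟩⟩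

omit [DecidableEq S] [DecidableEq Ed] in
theorem mst_inr (x : W Γ × N) (e : Ed) :
    (∃ z, mst Γ src tgt T x (.inr e) z) ↔ src e = x.2 ∨ tgt e = x.2 :=
  ⟨fun ⟨_, h⟩ => h.2.imp (fun k => k.1.symm) fun k => k.1.symm, fun h => h.elim
    (fun k => ⟨(x.1, tgt e), rfl, .inl ⟨k.symm, rfl⟩⟩) fun k => ⟨(x.1, src e), rfl, .inr ⟨k.symm, rfl⟩⟩⟩

/-- the links of the mirror cube complex -/
theorem psm_mst {C : N → Finset S} {Tw : Ed → Finset S}
    (h : ∀ t, Chm Γ {e | src e = t ∨ tgt e = t} (C t) Tw) (hC : ∀ t s, t ∈ T s ↔ s ∈ C t)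
    (hT : ∀ e s, Wl src tgt T e s ↔ s ∈ Tw e) (x : W Γ × N) :
    Psm (cone Γ src tgt T) {c | ∃ z, mst Γ src tgt T x c z} :=
  psm_cone (h x.2) (fun e _ => hT e) (fun s => (mst_inl x s).trans (hC _ _)) (mst_inr x)

omit [DecidableEq Ed] in
/-- renaming the walls -/
theorem Chm.reidx {ι ι' : Type} {J : Set ι} {J' : Set ι'} {C : Finset S} {Tw : ι → Finset S}
    {Tw' : ι' → Finset S} (h : Chm Γ J C Tw) (h1 : ∀ j ∈ J, ∃ i ∈ J', Tw' i = Tw j)
    (h2 : ∀ i ∈ J', ∃ j ∈ J, Tw' i = Tw j)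
    (h3 : ∀ j ∈ J', ∀ i ∈ J', ∀ s ∈ Tw' j, s ∈ Tw' i → j = i) : Chm Γ J' C Tw' where
  sub i hi := by obtain ⟨j, hj, e⟩ := h2 i hi; rw [e]; exact h.sub j hj
  dis := h3
  le4 := h.le4
  le3 i hi := by obtain ⟨j, hj, e⟩ := h2 i hi; rw [e]; exact h.le3 j hj
  ext4 := h.ext4
  ext3 i hi := by obtain ⟨j, hj, e⟩ := h2 i hi; rw [e]; exact h.ext3 j hj
  two4 ρ hρ hc hw := h.two4 ρ hρ hc fun j hj => by
    obtain ⟨i, hi, e⟩ := h1 j hj; rw [← e]; exact hw i hi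
  one4 i hi := by obtain ⟨j, hj, e⟩ := h2 i hi; rw [e]; exact h.one4 j hj
  two3 i hi := by obtain ⟨j, hj, e⟩ := h2 i hi; rw [e]; exact h.two3 j hj
  lk4 := h.lk4
  lk3 i hi := by obtain ⟨j, hj, e⟩ := h2 i hi; rw [e]; exact h.lk3 j hj

end Crest.Agent.N233.Lp

end
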