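import Mathlib

/-!
# Row 233 (helper95): normal flag three dimensional pseudomanifolds
-/

set_option autoImplicit false
open Set Relation

namespace Crest.Agent.N233.Lp

variable {A : Type} [DecidableEq A] (Γ : SimpleGraph A)

/-- the vertices of the link of `τ` in `L` -/
def Lk (L : Set A) (τ : Finset A) (c : A) : Prop := c ∈ L ∧ ∀ a ∈ τ, Γ.Adj a c

/-- the full subcomplex on `L` is a closed normal three dimensional pseudomanifold -/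
structure Psm (L : Set A) : Prop where
  le4 : ∀ τ : Finset A, Γ.IsClique (τ : Set A) → ↑τ ⊆ L → τ.card ≤ 4
  ext : ∀ τ : Finset A, Γ.IsClique (τ : Set A) → ↑τ ⊆ L → ∃ σ, Γ.IsNClique 4 σ ∧ τ ⊆ σ ∧ ↑σ ⊆ L
  two : ∀ ρ, Γ.IsNClique 3 ρ → ↑ρ ⊆ L → ∃ a a', a ≠ a' ∧ ∀ s, Lk Γ L ρ s ↔ s = a ∨ s = a'
  lk : ∀ τ : Finset A, Γ.IsClique (τ : Set A) → ↑τ ⊆ L → τ.card ≤ 2 → ∀ c c', Lk Γ L τ c →
    Lk Γ L τ c' → ReflTransGen (fun u v => Γ.Adj u v ∧ Lk Γ L τ v) c c'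
  fin : ∀ a ∈ L, {c | Lk Γ L {a} c}.Finite

end Crest.Agent.N233.Lp
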