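import Crest.Agent.N233.Lp.Ch
import Crest.Agent.N255.Ch.Main
import Crest.Agent.N255.Fa.Hyp

/-!
# Row 233 (helper95): a mirror model with local structure is a pseudomanifold; the unsubdivided tree
-/

set_option autoImplicit false
open Relation

noncomputable section

namespace Crest.Agent.N233.Lp

open N255 N255.Ch N233.Hyp N255.Ra

variable {S K F Nd Ed : Type} [DecidableEq S] [LinearOrder K] [Group F] [MulAction F Nd]
  [MulAction F Ed] [DecidableEq Ed] {M : Ce.Mir S K F Nd Ed} (L : Ch.Loc M)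
include L

theorem wall_eq {e e' : Ed} (h : M.src e = M.src e') {s : S} (hs : s ∈ M.sp (M.tgt e))
    (hs' : s ∈ M.sp (M.tgt e')) : e = e' :=
  ((L.tgt_eq e e' (L.w1 e e' s hs hs')).resolve_right fun k => L.src_op e (k ▸ h.symm)).symm

theorem chm {n : Nd} (hn : ¬M.ty n) :
    Chm M.Γ {e | M.src e = n} (M.sp n) fun e => M.sp (M.tgt e) :=
  chm_of M.col_ne (L.wal n hn) (fun e _ => L.tor e) (fun e he => he ▸ L.wall e)
    (fun _ he _ he' _ hs hs' => wall_eq L (he.trans he'.symm) hs hs')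
    (fun τ h => M.dimN n τ h.1 h.2.2)
    fun e _ τ h => M.dimE e τ h.1 (h.2.2.trans (L.wall e)) h.2.2

theorem nodes {n n' : Nd} (hn : ¬M.ty n) (hn' : ¬M.ty n') {τ : Finset S} (hτ : τ.Nonempty)
    (h : τ ⊆ M.sp n) (h' : τ ⊆ M.sp n') :
    n' = n ∨ ∃ e, M.src e = n ∧ M.src (L.op e) = n' ∧ M.sp n ∩ M.sp n' ⊆ M.sp (M.tgt e) := by
  obtain ⟨s, hs⟩ := hτ
  exact (em _).imp_right fun k => L.w2 n n' s hn hn' (Ne.symm k) (h hs) (h' hs)

theorem wall_op (e : Ed) : M.sp (M.tgt e) ⊆ M.sp (M.src (L.op e)) := L.tgt_op e ▸ L.wall (L.op e)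

theorem wall_ne (e : Ed) : (M.sp (M.tgt e)).Nonempty := by
  obtain ⟨σ, h1, h2⟩ := (chm L (M.ty_src e)).ext3 e rfl ∅ ⟨by simp, by simp, by simp⟩
  exact (Finset.card_pos.1 (by omega : 0 < σ.card)).mono h1.2.2

theorem lk_vtx {τ : Finset S} (hτ : M.Γ.IsClique (τ : Set S)) {s : S} (h : Lk M.Γ Set.univ τ s) :
    ∃ n, ¬M.ty n ∧ τ ⊆ M.sp n ∧ Lk M.Γ (M.sp n) τ s := by
  obtain ⟨n, h1, h2⟩ := L.exists_vtx (h.clique hτ)
  exact ⟨n, h1, (Finset.subset_insert _ _).trans h2, h2 (Finset.mem_insert_self _ _), h.2⟩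

theorem sp_conn (n : Nd) {s s' : S} (h : s ∈ M.sp n) (h' : s' ∈ M.sp n) :
    ReflTransGen M.Γ.Adj s s' := by
  obtain ⟨n', h1, h2⟩ : ∃ n', ¬M.ty n' ∧ M.sp n ⊆ M.sp n' := by
    by_cases k : M.ty n
    · obtain ⟨e, rfl⟩ := L.mid n k
      exact ⟨_, M.ty_src e, L.wall e⟩
    · exact ⟨n, k, subset_rfl⟩
  exact ((chm L h1).lk4 ∅ ⟨by simp, by simp, by simp⟩ (by simp) s s' ⟨h2 h, by simp⟩
    ⟨h2 h', by simp⟩).lift id fun _ _ k => k.1

theorem gam_conn (s s' : S) : ReflTransGen M.Γ.Adj s s' := by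
  obtain ⟨n, -, h⟩ := L.exists_vtx (t0 := {s}) (by simp)
  obtain ⟨n', -, h'⟩ := L.exists_vtx (t0 := {s'}) (by simp)
  rw [Finset.singleton_subset_iff] at h h'
  have p := (Fa.hmir M).conn n n'
  induction p generalizing s' with
  | refl => exact sp_conn L n h h'
  | @tail u v _ k ih =>
    obtain ⟨e, k⟩ := k
    obtain ⟨w, hw⟩ := wall_ne L e
    have : w ∈ M.sp u ∧ w ∈ M.sp v := by
      rcases k with ⟨rfl, rfl⟩ | ⟨rfl, rfl⟩
      exacts [⟨L.wall e hw, hw⟩, ⟨hw, L.wall e hw⟩]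
    exact (ih w this.1).trans (sp_conn L v this.2 h')

/-- the nerve is a closed normal pseudomanifold -/
theorem psm_univ : Psm M.Γ Set.univ := by
  refine ⟨fun τ h _ => Fa.card_le_four h, fun τ h _ => ?_, fun ρ h _ => ?_,
    fun τ h _ hc c c' k k' => ?_, fun a _ => ?_⟩
  · obtain ⟨n, h1, h2⟩ := L.exists_vtx h
    obtain ⟨σ, h3, h4⟩ := (chm L h1).ext4 τ ⟨h, by simp, h2⟩
    exact ⟨σ, ⟨h3.1, h4⟩, h3.2.1, by simp⟩
  · obtain ⟨n, h1, h2⟩ := L.exists_vtx h.1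
    have ne : ρ.Nonempty := Finset.card_pos.1 (by rw [h.2]; omega)
    by_cases hw : ∃ e, M.src e = n ∧ ρ ⊆ M.sp (M.tgt e)
    · obtain ⟨e, rfl, hw⟩ := hw
      obtain ⟨a, ha⟩ := (chm L h1).one4 e rfl ρ ⟨h.1, by simp, hw⟩ h.2
      obtain ⟨a', ha'⟩ := (chm L (M.ty_src (L.op e))).one4 (L.op e) rfl ρ
        ⟨h.1, by simp, by simpa only [L.tgt_op] using hw⟩ h.2
      have h3 := hw.trans (wall_op L e)
      refine ⟨a, a', ?_, fun s => ⟨fun k => ?_, ?_⟩⟩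
      · rintro rfl
        have k := (ha a).2 rfl
        obtain k1 | ⟨e', -, -, k1⟩ := nodes L h1 (M.ty_src (L.op e)) ne h2 h3
        · exact L.src_op e k1
        · have s1 : insert a ρ ⊆ M.sp (M.tgt e') := (Finset.subset_inter
            (Finset.insert_subset k.1 h2) (Finset.insert_subset ((ha' a).2 rfl).1 h3)).trans k1
          have := M.dimE e' _ (k.clique h.1) (s1.trans (L.wall e')) s1
          rw [Finset.card_insert_of_notMem k.nmem, h.2] at this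
          omega
      · obtain ⟨n', k1, k2, k3⟩ := lk_vtx L h.1 k
        obtain rfl | ⟨e', k4, rfl, k5⟩ := nodes L h1 k1 ne h2 k2
        · exact .inl ((ha s).1 k3)
        · obtain ⟨v, hv⟩ := ne
          obtain rfl := wall_eq L k4 (k5 (Finset.mem_inter.2 ⟨h2 hv, k2 hv⟩)) (hw hv)
          exact .inr ((ha' s).1 k3)
      · rintro (rfl | rfl)
        exacts [((ha _).2 rfl).mono (Set.subset_univ _), ((ha' _).2 rfl).mono (Set.subset_univ _)]
    · obtain ⟨a, a', n1, ha⟩ := (chm L h1).two4 ρ ⟨h.1, by simp, h2⟩ h.2 fun e he k => hw ⟨e, he, k⟩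
      refine ⟨a, a', n1, fun s => ⟨fun k => ?_, fun k => ((ha s).2 k).mono (Set.subset_univ _)⟩⟩
      obtain ⟨n', k1, k2, k3⟩ := lk_vtx L h.1 k
      obtain rfl | ⟨e', k4, -, k5⟩ := nodes L h1 k1 ne h2 k2
      · exact (ha s).1 k3
      · exact (hw ⟨e', k4, (Finset.subset_inter h2 k2).trans k5⟩).elim
  · rcases τ.eq_empty_or_nonempty with rfl | ne
    · exact (gam_conn L c c').lift id fun u v k => ⟨k, trivial, by simp⟩
    obtain ⟨n, h1, h2, h3⟩ := lk_vtx L h k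
    obtain ⟨n', k1, k2, k3⟩ := lk_vtx L h k'
    have p : ∀ {n}, ¬M.ty n → τ ⊆ M.sp n → ∀ s s', Lk M.Γ (M.sp n) τ s → Lk M.Γ (M.sp n) τ s' →
        ReflTransGen (fun u v => M.Γ.Adj u v ∧ Lk M.Γ Set.univ τ v) s s' := fun hn h2 s s' a a' =>
      ((chm L hn).lk4 τ ⟨h, by simp, h2⟩ hc s s' a a').lift id fun u v k =>
        ⟨k.1, k.2.mono (Set.subset_univ _)⟩
    obtain rfl | ⟨e, rfl, rfl, k5⟩ := nodes L h1 k1 ne h2 k2
    · exact p h1 h2 _ _ h3 k3
    · obtain ⟨σ, a1, a2⟩ := (chm L h1).ext3 e rfl τ ⟨h, by simp, (Finset.subset_inter h2 k2).trans k5⟩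
      obtain ⟨s, -, a3⟩ := exists_lk (L := M.sp (M.tgt e)) a1.1 a1.2.1 (by omega)
        (Finset.coe_subset.2 a1.2.2)
      exact (p h1 h2 _ _ h3 (a3.mono (Finset.coe_subset.2 (L.wall e)))).trans
        (p k1 k2 _ _ (a3.mono (Finset.coe_subset.2 (wall_op L e))) k3)
  · obtain ⟨n, h1, h2⟩ := L.exists_vtx (t0 := {a}) (by simp)
    refine ((M.sp n).finite_toSet.union ((star M n).finite_toSet.biUnion fun e _ =>
      (M.sp (M.src (L.op e))).finite_toSet)).subset fun c k => ?_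
    obtain ⟨n', k1, k2, k3⟩ := lk_vtx L (by simp) k
    obtain rfl | ⟨e, k4, rfl, -⟩ := nodes L h1 k1 (by simp) h2 k2
    · exact .inl k3.1
    · exact .inr (Set.mem_biUnion (mem_star.2 k4) k3.1)

/-- the links of the mirror cube complex over any model of the unsubdivided tree -/
theorem psm_of_loc {N E : Type} [DecidableEq E] {src tgt : E → N} {T : S → Set N} (ν : N → Nd)
    (μ : E → Nd) (hν : ∀ t, ¬M.ty (ν t)) (hC : ∀ t s, t ∈ T s ↔ s ∈ M.sp (ν t))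
    (hT : ∀ e s, Wl src tgt T e s ↔ s ∈ M.sp (μ e))
    (h1 : ∀ t e', M.src e' = ν t → ∃ e, (src e = t ∨ tgt e = t) ∧ μ e = M.tgt e')
    (h2 : ∀ t e, src e = t ∨ tgt e = t → ∃ e', M.src e' = ν t ∧ μ e = M.tgt e')
    (h3 : ∀ e e' s, Wl src tgt T e s → Wl src tgt T e' s → e = e') (x : W M.Γ × N) :
    Psm (cone M.Γ src tgt T) {c | ∃ z, mst M.Γ src tgt T x c z} :=
  psm_mst (C := fun t => M.sp (ν t)) (Tw := fun e => M.sp (μ e)) (fun t => (chm L (hν t)).reidx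
    (fun e' h => (h1 t e' h).imp fun _ k => ⟨k.1, congrArg M.sp k.2⟩)
    (fun e h => (h2 t e h).imp fun _ k => ⟨k.1, congrArg M.sp k.2⟩)
    fun e _ e' _ s a b => h3 e e' s ((hT _ _).2 a) ((hT _ _).2 b)) hC hT x

/-! ### the canonical unsubdivided tree -/

omit L in
variable (M) in
/-- chambers -/
abbrev VN : Type := {n : Nd // ¬M.ty n}

omit L in
variable (M) in
/-- walls -/
abbrev WN : Type := {n : Nd // M.ty n}

omit L in
variable (M) in
/-- mirrors -/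
def Tv (s : S) : Set (VN M) := {n | s ∈ M.sp n.1}

/-- a half edge into a wall -/
def hf (μ : WN M) : Ed := (L.mid μ.1 μ.2).choose

theorem tgt_hf (μ : WN M) : M.tgt (hf L μ) = μ.1 := (L.mid μ.1 μ.2).choose_spec

/-- one side of a wall -/
def sv (μ : WN M) : VN M := ⟨M.src (hf L μ), M.ty_src _⟩

/-- the other side of a wall -/
def tv (μ : WN M) : VN M := ⟨M.src (L.op (hf L μ)), M.ty_src _⟩

omit L in
instance : MulAction F (VN M) where
  smul f n := ⟨f • n.1, fun h => n.2 ((M.ty_smul f _).1 h)⟩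
  one_smul n := Subtype.ext (one_smul F n.1)
  mul_smul f g n := Subtype.ext (mul_smul f g n.1)

omit L in
theorem coe_smul (f : F) (n : VN M) : (f • n).1 = f • n.1 := rfl

theorem hf_or (e : Ed) : hf L ⟨M.tgt e, M.ty_tgt e⟩ = e ∨ hf L ⟨M.tgt e, M.ty_tgt e⟩ = L.op e :=
  L.tgt_eq e _ (tgt_hf L ⟨M.tgt e, M.ty_tgt e⟩).symm

theorem end_of (e : Ed) : End (sv L) (tv L) ⟨M.tgt e, M.ty_tgt e⟩ ⟨M.src e, M.ty_src e⟩
    ⟨M.src (L.op e), M.ty_src _⟩ := by
  rcases hf_or L e with h | h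
  · exact .inl ⟨Subtype.ext (by simp only [sv, h]), Subtype.ext (by simp only [tv, h])⟩
  · exact .inr ⟨Subtype.ext (by simp only [tv, h, L.op_op]), Subtype.ext (by simp only [sv, h])⟩

theorem of_end {μ : WN M} {t t' : VN M} (h : End (sv L) (tv L) μ t t') :
    ∃ e, M.tgt e = μ.1 ∧ M.src e = t.1 ∧ M.src (L.op e) = t'.1 := by
  rcases h with ⟨rfl, rfl⟩ | ⟨rfl, rfl⟩
  · exact ⟨_, tgt_hf L μ, rfl, rfl⟩
  · exact ⟨L.op (hf L μ), (L.tgt_op _).trans (tgt_hf L μ), rfl, by rw [L.op_op]; rfl⟩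

theorem op_smul (f : F) (e : Ed) : L.op (f • e) = f • L.op e :=
  ((L.tgt_eq (f • e) (f • L.op e) (by rw [M.tgt_smul, M.tgt_smul, L.tgt_op])).resolve_left
    fun k => L.op_ne e (MulAction.injective f k)).symm

/-- no two walls join the same chambers -/
theorem eq_of_src {e e' : Ed} (h : M.src e = M.src e') (h' : M.src (L.op e) = M.src (L.op e')) :
    e = e' := by
  classical
  by_contra n
  obtain ⟨c, hc⟩ := (Fa.hmir M).coc (Multiplicative ℤ)
    fun d => if d = e then Multiplicative.ofAdd 1 else 1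
  have a1 := hc e
  have a2 := hc (L.op e)
  have a3 := hc e'
  have a4 := hc (L.op e')
  rw [if_pos rfl] at a1
  rw [if_neg (L.op_ne e), L.tgt_op, mul_one] at a2
  rw [if_neg (Ne.symm n), mul_one] at a3
  rw [if_neg fun k => L.src_op e' (by rw [k, h]), L.tgt_op, mul_one] at a4
  rw [a2, h', ← a4, a3, ← h] at a1
  simpa using a1

theorem wl_iff (μ : WN M) (s : S) : Wl (sv L) (tv L) (Tv M) μ s ↔ s ∈ M.sp μ.1 := by
  rw [← tgt_hf L μ]
  refine ⟨fun h => ?_, fun h => ⟨L.wall _ h, wall_op L _ h⟩⟩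
  obtain ⟨e, h1, h2, h3⟩ := L.w2 _ _ s (M.ty_src _) (M.ty_src _) (L.src_op (hf L μ)).symm h.1 h.2
  rw [← eq_of_src L h1 h2]
  exact h3 (Finset.mem_inter.2 h)

theorem can_coc : Coc (sv L) (tv L) := by
  classical
  intro H _ g
  obtain ⟨c, hc⟩ := (Fa.hmir M).coc H fun e =>
    if hf L ⟨M.tgt e, M.ty_tgt e⟩ = e then g ⟨M.tgt e, M.ty_tgt e⟩ else 1
  refine ⟨fun n => c n.1, fun μ => ?_⟩
  have e1 : (⟨M.tgt (hf L μ), M.ty_tgt _⟩ : WN M) = μ := Subtype.ext (tgt_hf L μ)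
  have e2 : (⟨M.tgt (L.op (hf L μ)), M.ty_tgt _⟩ : WN M) = μ :=
    Subtype.ext ((L.tgt_op _).trans (tgt_hf L μ))
  have a1 := hc (hf L μ)
  have a2 := hc (L.op (hf L μ))
  rw [e1, if_pos rfl] at a1
  rw [e2, if_neg (L.op_ne _).symm, mul_one, L.tgt_op] at a2
  exact a2.symm.trans a1

theorem can_conn (t t' : VN M) : ReflTransGen (fun u v => ∃ e, End (sv L) (tv L) e u v) t t' := by
  have key : ∀ n, ReflTransGen (fun u v => ∃ e, End M.src M.tgt e u v) t.1 n →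
      (∀ h, ReflTransGen (fun u v => ∃ e, End (sv L) (tv L) e u v) t ⟨n, h⟩) ∧
        ∀ e, M.tgt e = n →
          ReflTransGen (fun u v => ∃ e, End (sv L) (tv L) e u v) t ⟨M.src e, M.ty_src e⟩ := by
    intro n p
    induction p with
    | refl => exact ⟨fun _ => .refl, fun e h => (t.2 (h ▸ M.ty_tgt e)).elim⟩
    | tail _ k ih =>
      obtain ⟨e, ⟨rfl, rfl⟩ | ⟨rfl, rfl⟩⟩ := k
      · refine ⟨fun h => (h (M.ty_tgt e)).elim, fun e' h => ?_⟩
        rcases L.tgt_eq e e' h.symm with rfl | rfl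
        · exact ih.1 _
        · exact (ih.1 _).tail ⟨_, end_of L e⟩
      · exact ⟨fun _ => ih.2 e rfl, fun e' h => (src_ne_tgt e e' h.symm).elim⟩
  exact (key _ ((Fa.hmir M).conn t.1 t'.1)).1 t'.2

theorem can_h1 {σ : Set S} (h : M.Γ.IsClique σ) : ∃ t, ∀ v ∈ σ, t ∈ Tv M v := by
  have hf : σ.Finite := by
    by_contra k
    obtain ⟨τ, h1, h2⟩ := Set.Infinite.exists_subset_card_eq k 5
    have := Fa.card_le_four (M := M) (h.subset h1)
    omega
  obtain ⟨n, h1, h2⟩ := L.exists_vtx (t0 := hf.toFinset) (by simpa using h)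
  exact ⟨⟨n, h1⟩, fun v hv => h2 (hf.mem_toFinset.2 hv)⟩

theorem can_h2 (s : S) : ∀ t ∈ Tv M s, ∀ t' ∈ Tv M s, t = t' ∨ ∃ e, End (sv L) (tv L) e t t' := by
  rintro ⟨t, ht⟩ h ⟨t', ht'⟩ h'
  refine (em _).imp_right fun n => ?_
  obtain ⟨e, rfl, rfl, -⟩ := L.w2 t t' s ht ht' (fun k => n (Subtype.ext k)) h h'
  exact ⟨_, end_of L e⟩

theorem can_h3 (e e' : WN M) (s : S) (h : Wl (sv L) (tv L) (Tv M) e s)
    (h' : Wl (sv L) (tv L) (Tv M) e' s) : e = e' := by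
  rw [wl_iff, ← tgt_hf L] at h h'
  exact Subtype.ext (by rw [← tgt_hf L e, ← tgt_hf L e']; exact L.w1 _ _ s h h')

theorem can_mir : Hyp.Mir M.Γ (sv L) (tv L) (Tv M) where
  coc := can_coc L
  conn := can_conn L
  Tconn s t h t' h' := by
    rcases can_h2 L s t h t' h' with rfl | ⟨e, k⟩
    · exact .refl
    · refine .single ⟨e, k, ?_⟩
      rcases k with ⟨rfl, rfl⟩ | ⟨rfl, rfl⟩
      exacts [⟨h, h'⟩, ⟨h', h⟩]
  Tne s := (can_h1 L (σ := {s}) (by simp)).imp fun _ h => h s rfl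
  Tadj s s' h := (can_h1 L (σ := {s, s'}) (by simpa using fun _ => h)).imp fun _ k =>
    ⟨k s (by simp), k s' (by simp)⟩

omit L in
theorem can_hT (g : F) (s : S) (t : VN M) (h : t ∈ Tv M s) : g • t ∈ Tv M (M.ρ g s) := by
  show _ ∈ M.sp (g • t.1)
  rw [M.sp_smul]
  exact Finset.mem_image_of_mem _ h

theorem end_smul (g : F) {μ : WN M} {t t' : VN M} (h : End (sv L) (tv L) μ t t') :
    End (sv L) (tv L) ⟨g • μ.1, (M.ty_smul g _).2 μ.2⟩ (g • t) (g • t') := by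
  obtain ⟨e, h1, h2, h3⟩ := of_end L h
  convert end_of L (g • e) using 2
  · rw [M.tgt_smul, h1]
  · rw [coe_smul, ← h2, M.src_smul]
  · rw [coe_smul, ← h3, op_smul, M.src_smul]

theorem can_hE (g : F) (e : WN M) : ∃ e', End (sv L) (tv L) e' (g • sv L e) (g • tv L e) :=
  ⟨_, end_smul L g (.inl ⟨rfl, rfl⟩)⟩

omit L in
theorem can_l1 (t : VN M) : {s | t ∈ Tv M s}.Finite := (M.sp t.1).finite_toSet

theorem can_l2 (t : VN M) : {t' | ∃ e, End (sv L) (tv L) e t t'}.Finite := by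
  refine ((star M t.1).finite_toSet.image fun e => (⟨M.src (L.op e), M.ty_src _⟩ : VN M)).subset ?_
  rintro t' ⟨μ, h⟩
  obtain ⟨e, -, h2, h3⟩ := of_end L h
  exact ⟨e, mem_star.2 h2, Subtype.ext h3⟩

omit L in
theorem can_cof : ∃ B : Set (VN M), B.Finite ∧ ∀ t, ∃ g : F, g • t ∈ B := by
  obtain ⟨B, h1, h2⟩ := M.finN
  exact ⟨Subtype.val ⁻¹' B, h1.preimage Subtype.val_injective.injOn, fun t => h2 t.1⟩

omit L in
theorem can_free (g : F) (t : VN M) (h : g • t = t) : g = 1 := M.free g t.1 (congrArg Subtype.val h)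

open Classical in
theorem can_psm (x : W M.Γ × VN M) :
    Psm (cone M.Γ (sv L) (tv L) (Tv M)) {c | ∃ z, mst M.Γ (sv L) (tv L) (Tv M) x c z} :=
  psm_of_loc L Subtype.val Subtype.val (fun t => t.2) (fun _ _ => Iff.rfl) (wl_iff L)
    (fun t e' h => ⟨⟨M.tgt e', M.ty_tgt e'⟩, (end_of L e').imp
      (fun k => k.1.symm.trans (Subtype.ext h)) fun k => k.1.symm.trans (Subtype.ext h), rfl⟩)
    (fun t e h => by
      rcases h with rfl | rfl
      · exact ⟨_, rfl, (tgt_hf L e).symm⟩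
      · exact ⟨_, rfl, ((L.tgt_op _).trans (tgt_hf L e)).symm⟩) (can_h3 L) x

/-- no squares, if the walls are two-convex -/
theorem can_noSq (hq : NoSq M.Γ) (hx : ∀ e a b d, b ∈ M.sp (M.tgt e) → d ∈ M.sp (M.tgt e) → b ≠ d →
      M.Γ.Adj a b → M.Γ.Adj a d → M.Γ.Adj b d ∨ a ∈ M.sp (M.tgt e)) :
    NoSq (cone M.Γ (sv L) (tv L) (Tv M)) :=
  noSq_cone hq (fun e e' s _ n h h' _ _ _ => (n (can_h3 L e e' s h h')).elim) fun e a b d => by
    simp only [wl_iff, ← tgt_hf L e]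
    exact hx _ a b d

theorem can_hyp (hq : NoSq (cone M.Γ (sv L) (tv L) (Tv M))) :
    Crest.GroupTheory.IsHyperbolicGroup (W M.Γ ⋊[autHom M.ρ] F) := by
  obtain ⟨B, h1, h2⟩ := can_cof (M := M)
  obtain ⟨n, hn⟩ := L.vtx
  exact (can_mir L).hyp hq (n := 4) (fun σ h => Fa.card_le_four h) M.ρ can_hT (can_hE L) can_l1
    (can_l2 L) h1 h2 ⟨n, hn⟩ ((Set.finite_singleton 1).subset fun g h => can_free g _ h)

end Crest.Agent.N233.Lp

end
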