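import Crest.Agent.N233.Lp.Gl
import Crest.Agent.N233.Lp.Abs
import Crest.Agent.N233.Lo.Mir
import Crest.Agent.N233.Hi.Hy
import Crest.Agent.N255.Pt.Mir

/-!
# Row 233 (helper95): the pseudomanifold facts for the subdivided model
-/

set_option autoImplicit false

noncomputable section

namespace Crest.Agent.N233.Lp

open N255 N255.Pt N255.Ra N233.Hyp N233.PS N233.Lo N233.Hi

attribute [local irreducible] Pb.ixc

variable {ι I Tor : Type} [Fintype ι] [Fintype I] [Fintype Tor] [DecidableEq ι] [DecidableEq I]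
  [DecidableEq Tor] (D : Dt ι I Tor (Fin 4)) (L : Ch.Loc (mps D.mir))
include L

theorem psmD_univ : Psm (ps D.Gt.IsClique) Set.univ := psm_univ L

theorem hyD : Rr.Hy (ps D.Gt.IsClique) := (psmD_univ D L).hy

theorem psmD (x : W (ps D.Gt.IsClique) × FreeGroup ι) :
    Psm (cone (ps D.Gt.IsClique) (sr ι) (tg ι) (Ts Tc))
      {c | ∃ z, mst (ps D.Gt.IsClique) (sr ι) (tg ι) (Ts Tc) x c z} := by
  refine psm_of_loc L (N := FreeGroup ι) (E := FreeGroup ι × ι) (fun t => ⟨t, none⟩)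
    (fun e => ⟨e.1, some e.2⟩) (fun _ h => h rfl) (fun t a => ?_) (fun e a => ?_) (fun t e' h => ?_)
    (fun t e h => ?_) (fun e e' a h h' => ?_) x
  · rw [mps_sp, mem_st, Dt.mir_sp, coe_sp]; rfl
  · rw [mps_sp, mem_st, Dt.mir_sp, coe_sp]
    exact wl_Ts.trans (forall₂_congr fun s _ => wl_tc)
  · obtain rfl : e'.v = t := congrArg Pt.L.v h
    exact ⟨_, (end_x e'.v e'.k).imp (fun k => k.1.symm) fun k => k.1.symm, rfl⟩
  · rcases h with rfl | rfl
    · exact ⟨⟨e.1, e.2, true⟩, rfl, rfl⟩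
    · exact ⟨⟨e.1 * Pt.x (e.2, true), Pt.op (e.2, true)⟩, rfl, (tgt_op ⟨e.1, e.2, true⟩).symm⟩
  · obtain ⟨s, hs⟩ := car_nonempty a
    exact wl_disj e e' s (wl_Ts.1 h hs) (wl_Ts.1 h' hs)

theorem lk1D : Ou.Lk1 (cone (ps D.Gt.IsClique) (sr ι) (tg ι) (Ts Tc))
    (mst (ps D.Gt.IsClique) (sr ι) (tg ι) (Ts Tc)) := lk1_of (psmD D L)

theorem locD : Rg.Loc (cone (ps D.Gt.IsClique) (sr ι) (tg ι) (Ts Tc))
    (mst (ps D.Gt.IsClique) (sr ι) (tg ι) (Ts Tc)) := loc_of (nsqD D fun _ => Iff.rfl) (psmD D L)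

end Crest.Agent.N233.Lp

end
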