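import Crest.Agent.N233.Lp.Defs
import Crest.Agent.N255.Ch.Loc

/-!
# Row 233 (helper95): exact link complexes give pseudomanifolds with boundary
-/

set_option autoImplicit false
open Finsupp Relation

noncomputable section

namespace Crest.Agent.N233.Lp

open N255.Ch

variable {S K : Type} [DecidableEq S] [LinearOrder K] {Γ : SimpleGraph S} {col : S → K}
  {U t0 : Finset S} {s : S}

theorem Lk.nmem {L : Set S} (h : Lk Γ L t0 s) : s ∉ t0 := fun m => (h.2 s m).ne rfl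

theorem Lk.clique {L : Set S} (h : Lk Γ L t0 s) (h0 : Γ.IsClique (t0 : Set S)) :
    Γ.IsClique ((insert s t0 : Finset S) : Set S) := by
  rw [Finset.coe_insert]
  exact h0.insert fun b hb _ => (h.2 b hb).symm

theorem lk_of {L : Set S} {t : Finset S} (ht : Γ.IsClique (t : Set S)) (h : t0 ⊆ t) (hs : s ∈ t)
    (hn : s ∉ t0) (hL : s ∈ L) : Lk Γ L t0 s :=
  ⟨hL, fun a ha => ht (h ha) hs fun e => hn (e ▸ ha)⟩

theorem Lk.mono {L L' : Set S} (h : Lk Γ L t0 s) (hL : L ⊆ L') : Lk Γ L' t0 s := ⟨hL h.1, h.2⟩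

theorem exists_lk {L : Set S} {t : Finset S} (ht : Γ.IsClique (t : Set S)) (h : t0 ⊆ t)
    (hc : t0.card < t.card) (hL : ↑t ⊆ L) : ∃ s ∈ t, Lk Γ L t0 s := by
  obtain ⟨s, hs, hn⟩ := Finset.exists_mem_notMem_of_card_lt_card hc
  exact ⟨s, hs, lk_of ht h hs hn (hL hs)⟩

theorem ins_inj {s' : S} (hs : s ∉ t0) (e : insert s t0 = insert s' t0) : s = s' := by
  have : s ∈ insert s' t0 := e ▸ Finset.mem_insert_self s t0
  exact (Finset.mem_insert.1 this).resolve_right hs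

variable (h0 : t0 ∈ Q Γ U ∅)
include h0

theorem Lk.memQ (h : Lk Γ U t0 s) : insert s t0 ∈ Q Γ U t0 :=
  ⟨h.clique h0.1, Finset.subset_insert _ _, Finset.insert_subset h.1 h0.2.2⟩

theorem dq_apex {a : Finset S →₀ ℤ} (ha : a ∈ Sp (Q Γ U t0)) (h : Lk Γ U t0 s) :
    dq Γ col U a (insert s t0) = eps col s t0 * a t0 := by
  rw [dq_apply, if_pos (h.clique h0.1), Finset.sum_eq_single s, Finset.erase_insert h.nmem]
  · intro x hx n
    rw [show a _ = 0 from by_contra fun k => ?_, mul_zero]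
    have := (mem_Sp.1 ha _ k).2.1
      ((Finset.mem_insert.1 (Finset.mem_inter.1 hx).1).resolve_left n)
    simp at this
  · exact fun n => (n (Finset.mem_inter.2 ⟨Finset.mem_insert_self _ _, h.1⟩)).elim

omit h0 in
theorem dq_lk {t : Finset S} (h : dq Γ col U (single t0 1) t ≠ 0) :
    ∃ s, Lk Γ U t0 s ∧ t = insert s t0 := by
  obtain ⟨hc, s, hs, hn, rfl⟩ := dq_ne h
  exact ⟨s, lk_of hc (Finset.subset_insert _ _) (Finset.mem_insert_self _ _) hn hs, rfl⟩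

theorem ex_conn (hcol : ∀ s t, Γ.Adj s t → col s ≠ col t)
    (h : ∀ b ∈ Sp (Q Γ U t0), (∀ t, b t ≠ 0 → t.card = t0.card + 1) → dq Γ col U b = 0 →
      ∃ a ∈ Sp (Q Γ U t0), dq Γ col U a = b) {c c' : S} (hc : Lk Γ U t0 c) (hc' : Lk Γ U t0 c') :
    ReflTransGen (fun u v => Γ.Adj u v ∧ Lk Γ U t0 v) c c' := by
  let D : S → Prop := ReflTransGen (fun u v => Γ.Adj u v ∧ Lk Γ U t0 v) c
  let l : Finset S → Prop := fun t => ∃ s ∈ t, s ∉ t0 ∧ D s
  let V : Set (Finset S) := {t | ∃ s, Lk Γ U t0 s ∧ t = insert s t0}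
  have hb : dq Γ col U (single t0 1) ∈ Sp V := mem_Sp.2 fun t => dq_lk
  have e0 : ∀ a : Finset S →₀ ℤ, a ∈ Sp (∅ : Set (Finset S)) ↔ a = 0 := fun a =>
    ⟨fun h => Finsupp.ext fun t => by_contra fun k => mem_Sp.1 h t k, fun h => h ▸ zero_mem _⟩
  have h1 := rs_label (δ := dq Γ col U) l (U := V) (V := ∅)
    (fun a ha => by rw [(e0 a).1 ha, map_zero]; exact zero_mem _) (by
      rintro _ ⟨s, hs, rfl⟩ - y hy
      obtain ⟨hy, s', h1, h2, rfl⟩ := dq_ne hy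
      have h3 : Lk Γ U t0 s' := lk_of hy ((Finset.subset_insert _ _).trans (Finset.subset_insert _ _))
        (Finset.mem_insert_self _ _) (fun k => h2 (Finset.mem_insert_of_mem k)) h1
      have j : Γ.Adj s' s := hy (by simp) (by simp) fun k => h2 (k ▸ Finset.mem_insert_self _ _)
      refine .inr (propext ⟨?_, fun ⟨x, hx, k⟩ => ⟨x, Finset.mem_insert_of_mem hx, k⟩⟩)
      rintro ⟨x, hx, k⟩
      rcases Finset.mem_insert.1 hx with rfl | hx
      · exact ⟨s, Finset.mem_insert_self _ _, hs.nmem, k.2.tail ⟨j, hs⟩⟩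
      · exact ⟨x, hx, k⟩) hb (by rw [dq_dq hcol]; exact zero_mem _) True
  rw [e0, Set.compl_empty, rs_eq_self (Sp_univ _)] at h1
  have hV := mem_Sp.1 (rs_mem_inter {x | l x = True} hb)
  obtain ⟨a, ha, e⟩ := h _ (mem_Sp.2 fun t k => by
    obtain ⟨⟨s, hs, rfl⟩, -⟩ := hV t k
    exact hs.memQ h0) (fun t k => by
    obtain ⟨⟨s, hs, rfl⟩, -⟩ := hV t k
    exact Finset.card_insert_of_notMem hs.nmem) h1
  have a1 := DFunLike.congr_fun e (insert c t0)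
  rw [dq_apex h0 ha hc, rs_of_mem _ (by
    exact eq_true ⟨c, Finset.mem_insert_self _ _, hc.nmem, .refl⟩),
    dq_insert hc.1 hc.nmem (hc.clique h0.1)] at a1
  by_contra n
  have a2 := DFunLike.congr_fun e (insert c' t0)
  rw [dq_apex h0 ha hc', rs_of_notMem _ (by
    intro k
    obtain ⟨x, hx, k1, k2⟩ := of_eq_true k
    obtain rfl := (Finset.mem_insert.1 hx).resolve_right k1
    exact n k2)] at a2
  rw [(mul_eq_zero.1 a2).resolve_left (eps_ne _ _), mul_zero] at a1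
  exact eps_ne _ _ a1.symm

theorem dq_top (hT : ∀ t ∈ Q Γ U ∅, t.card ≤ t0.card + 1) (h : Lk Γ U t0 s) (k : ℤ) :
    dq Γ col U (single (insert s t0) k) = 0 := by
  have : dq Γ col U (single (insert s t0) 1) = 0 := Finsupp.ext fun t => by_contra fun n => by
    obtain ⟨s', h', rfl⟩ := dq_lk n
    have := hT _ ⟨h'.clique (h.clique h0.1), Finset.empty_subset _,
      Finset.insert_subset h'.1 (h.memQ h0).2.2⟩
    rw [Finset.card_insert_of_notMem h'.nmem, Finset.card_insert_of_notMem h.nmem] at this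
    omega
  rw [dq_single, one_smul] at this
  rw [dq_single, this, smul_zero]

theorem ex_one (hT : ∀ t ∈ Q Γ U ∅, t.card ≤ t0.card + 1) (h : Ex (dq Γ col U) 0 (Sp (Q Γ U t0)))
    {c c' : S} (hc : Lk Γ U t0 c) (hc' : Lk Γ U t0 c') : c' = c := by
  obtain ⟨a, ha, e⟩ := h _ (single_mem (hc.memQ h0) 1) (dq_top h0 hT hc 1) rfl
  by_contra n
  have a1 := DFunLike.congr_fun e (insert c t0)
  have a2 := DFunLike.congr_fun e (insert c' t0)
  rw [dq_apex h0 ha hc, single_eq_same] at a1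
  rw [dq_apex h0 ha hc', single_eq_of_ne fun k => n (ins_inj hc'.nmem k)] at a2
  rw [(mul_eq_zero.1 a2).resolve_left (eps_ne _ _), mul_zero] at a1
  exact zero_ne_one a1

theorem ex_two (hT : ∀ t ∈ Q Γ U ∅, t.card ≤ t0.card + 1) {z : Finset S → ℤ}
    (h : Ex (dq Γ col U) (pe z) (Sp (Q Γ U t0))) (hz : pe z (dq Γ col U (single t0 1)) = 0)
    {c : S} (hc : Lk Γ U t0 c) (zc : z (insert c t0) ≠ 0) :
    ∃ a a', a ≠ a' ∧ ∀ s, Lk Γ U t0 s ↔ s = a ∨ s = a' := by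
  obtain ⟨c', n, hc'⟩ : ∃ c', c ≠ c' ∧ Lk Γ U t0 c' := by
    by_contra k
    push Not at k
    have : dq Γ col U (single t0 1) = single (insert c t0) (eps col c t0) := Finsupp.ext fun t => by
      by_cases e : t = insert c t0
      · rw [e, single_eq_same, dq_insert hc.1 hc.nmem (hc.clique h0.1)]
      · rw [single_eq_of_ne e]
        by_contra m
        obtain ⟨s, hs, rfl⟩ := dq_lk m
        exact k s (fun k => e (by rw [k])) hs
    rw [this, linearCombination_single, smul_eq_mul] at hz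
    exact zc ((mul_eq_zero.1 hz).resolve_left (eps_ne _ _))
  refine ⟨c, c', n, fun s => ⟨fun hs => by_contra fun k => ?_, by rintro (rfl | rfl) <;> assumption⟩⟩
  push Not at k
  obtain ⟨a, ha, e⟩ := h (single (insert c' t0) (z (insert c t0)) -
      single (insert c t0) (z (insert c' t0)))
    (sub_mem (single_mem (hc'.memQ h0) _) (single_mem (hc.memQ h0) _))
    (by rw [map_sub, dq_top h0 hT hc, dq_top h0 hT hc', sub_zero])
    (by simp only [map_sub, linearCombination_single, smul_eq_mul]; ring)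
  have a1 := DFunLike.congr_fun e (insert c' t0)
  have a2 := DFunLike.congr_fun e (insert s t0)
  rw [dq_apex h0 ha hc', Finsupp.sub_apply, single_eq_same,
    single_eq_of_ne fun k => n (ins_inj hc'.nmem k).symm] at a1
  rw [dq_apex h0 ha hs, Finsupp.sub_apply, single_eq_of_ne fun e => k.2 (ins_inj hs.nmem e),
    single_eq_of_ne fun e => k.1 (ins_inj hs.nmem e), sub_zero] at a2
  rw [(mul_eq_zero.1 a2).resolve_left (eps_ne _ _), mul_zero, sub_zero] at a1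
  exact zc a1.symm

omit h0

theorem eq_ins {t : Finset S} (ht : t ∈ Q Γ U t0) (hc : t.card = t0.card + 1) :
    ∃ c, Lk Γ U t0 c ∧ t = insert c t0 := by
  obtain ⟨c, h1, h2⟩ := exists_lk (L := U) ht.1 ht.2.1 (by omega) (Finset.coe_subset.2 ht.2.2)
  refine ⟨c, h2, (Finset.eq_of_subset_of_card_le (Finset.insert_subset h1 ht.2.1) ?_).symm⟩
  rw [Finset.card_insert_of_notMem h2.nmem, hc]

theorem pe_card {z : Finset S → ℤ} {k n : ℕ} (hz : ∀ t, z t ≠ 0 → t.card = k) {b : Finset S →₀ ℤ}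
    (hb : ∀ t, b t ≠ 0 → t.card = n) (h : n ≠ k) : pe z b = 0 := by
  rw [linearCombination_apply, Finsupp.sum]
  refine Finset.sum_eq_zero fun t ht => ?_
  rw [show z t = 0 from by_contra fun m => h ((hb t (mem_support_iff.1 ht)).symm.trans (hz t m)),
    smul_zero]

variable (Γ) in
/-- a chamber with walls: a normal pseudomanifold with boundary -/
structure Chm {ι : Type} (J : Set ι) (C : Finset S) (T : ι → Finset S) : Prop where
  sub : ∀ j ∈ J, T j ⊆ C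
  dis : ∀ j ∈ J, ∀ i ∈ J, ∀ s ∈ T j, s ∈ T i → j = i
  le4 : ∀ τ ∈ Q Γ C ∅, τ.card ≤ 4
  le3 : ∀ j ∈ J, ∀ τ ∈ Q Γ (T j) ∅, τ.card ≤ 3
  ext4 : ∀ τ ∈ Q Γ C ∅, ∃ σ ∈ Q Γ C τ, σ.card = 4
  ext3 : ∀ j ∈ J, ∀ τ ∈ Q Γ (T j) ∅, ∃ σ ∈ Q Γ (T j) τ, σ.card = 3
  two4 : ∀ ρ ∈ Q Γ C ∅, ρ.card = 3 → (∀ j ∈ J, ¬ρ ⊆ T j) →
    ∃ a a', a ≠ a' ∧ ∀ s, Lk Γ C ρ s ↔ s = a ∨ s = a'
  one4 : ∀ j ∈ J, ∀ ρ ∈ Q Γ (T j) ∅, ρ.card = 3 → ∃ a, ∀ s, Lk Γ C ρ s ↔ s = a
  two3 : ∀ j ∈ J, ∀ ρ ∈ Q Γ (T j) ∅, ρ.card = 2 →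
    ∃ a a', a ≠ a' ∧ ∀ s, Lk Γ (T j) ρ s ↔ s = a ∨ s = a'
  lk4 : ∀ τ ∈ Q Γ C ∅, τ.card ≤ 2 → ∀ c c', Lk Γ C τ c → Lk Γ C τ c' →
    ReflTransGen (fun u v => Γ.Adj u v ∧ Lk Γ C τ v) c c'
  lk3 : ∀ j ∈ J, ∀ τ ∈ Q Γ (T j) ∅, τ.card ≤ 1 → ∀ c c', Lk Γ (T j) τ c → Lk Γ (T j) τ c' →
    ReflTransGen (fun u v => Γ.Adj u v ∧ Lk Γ (T j) τ v) c c'

theorem chm_of (hcol : ∀ s t, Γ.Adj s t → col s ≠ col t) {ι : Type} [DecidableEq ι] {J : Set ι}
    {C : Finset S} {T : ι → Finset S} {o : Finset S → ℤ} {m l ω : ι → Finset S → ℤ}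
    (W : Wal Γ col J C T o m l ω) (R : ∀ j ∈ J, Tor Γ col (T j) (m j) (l j) (ω j))
    (sub : ∀ j ∈ J, T j ⊆ C) (dis : ∀ j ∈ J, ∀ i ∈ J, ∀ s ∈ T j, s ∈ T i → j = i)
    (le4 : ∀ τ ∈ Q Γ C ∅, τ.card ≤ 4) (le3 : ∀ j ∈ J, ∀ τ ∈ Q Γ (T j) ∅, τ.card ≤ 3) :
    Chm Γ J C T := by
  have nz : ∀ {x : ℤ}, x = 1 ∨ x = -1 → x ≠ 0 := by rintro _ (rfl | rfl) <;> decide
  have e4 : ∀ τ ∈ Q Γ C ∅, ∃ σ ∈ Q Γ C τ, σ.card = 4 ∧ o σ ≠ 0 := fun τ h =>
    (W.top τ h).imp fun σ k => ⟨k.1, (W.o_sup σ (nz k.2)).2, nz k.2⟩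
  have e3 : ∀ j ∈ J, ∀ τ ∈ Q Γ (T j) ∅, ∃ σ ∈ Q Γ (T j) τ, σ.card = 3 ∧ ω j σ ≠ 0 := fun j hj τ h =>
    ((R j hj).top τ h).imp fun σ k => ⟨k.1, ((R j hj).ω_sup σ (nz k.2)).2, nz k.2⟩
  have up : ∀ j ∈ J, ∀ τ ∈ Q Γ (T j) ∅, τ ∈ Q Γ C ∅ := fun j hj τ h =>
    ⟨h.1, h.2.1, h.2.2.trans (sub j hj)⟩
  refine ⟨sub, dis, le4, le3, fun τ h => (e4 τ h).imp fun _ k => ⟨k.1, k.2.1⟩,
    fun j hj τ h => (e3 j hj τ h).imp fun _ k => ⟨k.1, k.2.1⟩, fun ρ h hc hw => ?_,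
    fun j hj ρ h hc => ?_, fun j hj ρ h hc => ?_, fun τ h hc c c' => ?_, fun j hj τ h hc c c' => ?_⟩
  · obtain ⟨σ, h1, h2, h3⟩ := e4 ρ h
    obtain ⟨c, h4, rfl⟩ := eq_ins h1 (by omega)
    exact ex_two h (fun t ht => by have := le4 t ht; omega)
      (W.link_in ρ h (Finset.card_pos.1 (by omega)) hw) (W.st_in ρ h hw) h4 h3
  · obtain ⟨σ, h1, h2, -⟩ := e4 ρ (up j hj ρ h)
    obtain ⟨c, h4, rfl⟩ := eq_ins h1 (by omega)
    exact ⟨c, fun s => ⟨ex_one (up j hj ρ h) (fun t ht => by have := le4 t ht; omega)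
      (W.link_bd j hj ρ h (Finset.card_pos.1 (by omega))) h4, fun e => e ▸ h4⟩⟩
  · obtain ⟨σ, h1, h2, h3⟩ := e3 j hj ρ h
    obtain ⟨c, h4, rfl⟩ := eq_ins h1 (by omega)
    exact ex_two h (fun t ht => by have := le3 j hj t ht; omega)
      ((R j hj).link ρ h (Finset.card_pos.1 (by omega))) ((R j hj).ω_cyc ρ h) h4 h3
  · refine ex_conn h hcol fun b hb hb' hd => ?_
    rcases τ.eq_empty_or_nonempty with rfl | hne
    · exact W.glob b hb hd fun j hj =>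
        ⟨pe_card (fun t k => ((R j hj).m_sup t k).2) hb' (by simp),
          pe_card (fun t k => ((R j hj).ω_sup t k).2) hb' (by simp)⟩
    by_cases hw : ∃ j ∈ J, τ ⊆ T j
    · obtain ⟨j, hj, hw⟩ := hw
      exact W.link_bd j hj τ ⟨h.1, h.2.1, hw⟩ hne b hb hd rfl
    · push Not at hw
      exact W.link_in τ h hne hw b hb hd (pe_card (fun t k => (W.o_sup t k).2) hb' (by omega))
  · refine ex_conn h hcol fun b hb hb' hd => ?_
    rcases τ.eq_empty_or_nonempty with rfl | hne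
    · exact (R j hj).glob b hb hd (pe_card (fun t k => ((R j hj).m_sup t k).2) hb' (by simp))
        (pe_card (fun t k => ((R j hj).l_sup t k).2) hb' (by simp))
        (pe_card (fun t k => ((R j hj).ω_sup t k).2) hb' (by simp))
    · exact (R j hj).link τ h hne b hb hd
        (pe_card (fun t k => ((R j hj).ω_sup t k).2) hb' (by omega))

end Crest.Agent.N233.Lp

end
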